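import Mathlib
import Vale.Agent.P039.Bz.Stmt
import Vale.Agent.P039.Bn.L2.Defs

/-!
# P039-B, row L6 (1): from a good matching to a perfect matching through every edge at the root
-/

set_option linter.all false

namespace Vale.Agent.P039.H640

open Vale.Agent.P039.Bn Vale.Agent.P039.Bz Finset

variable {B W V : Type}

section

variable (M : PMap B W V) (b₀ : B)

/-- the matching extended to the root by the value `k` -/
noncomputable def ext (f : BOff b₀ → Fin 3) (k : Fin 3) (b : B) : Fin 3 := by
  classical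
  exact if h : b ≠ b₀ then f ⟨b, h⟩ else k

theorem ext_of_ne (f : BOff b₀ → Fin 3) (k : Fin 3) {b : B} (h : b ≠ b₀) :
    ext b₀ f k b = f ⟨b, h⟩ := by
  classical
  unfold ext
  exact dif_pos h

theorem ext_self (f : BOff b₀ → Fin 3) (k : Fin 3) : ext b₀ f k b₀ = k := by
  classical
  unfold ext
  exact dif_neg (fun h => h rfl)

variable {M b₀}

theorem Fo_some {b : BOff b₀} {j : Fin 3} {v : VOff M b₀} :
    Fo M b₀ b j = some v ↔ M.c j b.1 = v.1 := by
  classical
  unfold Fo
  constructor
  · intro h
    split_ifs at h with h1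
    rw [← Option.some.inj h]
  · intro h
    have h1 : ∀ i, M.c i b₀ ≠ M.c j b.1 := fun i => by
      rw [h]
      exact v.2 i
    rw [dif_pos h1]
    congr 1
    exact Subtype.ext h

/-- the extended matching satisfies `IsMatch` -/
theorem isMatch_ext {f : BOff b₀ → Fin 3} (hf : Mat (Fo M b₀) f) (k : Fin 3) :
    M.IsMatch b₀ (ext b₀ f k) := by
  obtain ⟨φ, hφ⟩ := hf
  have h1 : ∀ (b : B) (h : b ≠ b₀), M.c (ext b₀ f k b) b = (φ ⟨b, h⟩).1 := by
    intro b h
    rw [ext_of_ne b₀ f k h]
    exact Fo_some.1 (hφ ⟨b, h⟩)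
  refine ⟨?_, ?_, ?_⟩
  · intro b b' hb hb' h
    rw [h1 b hb, h1 b' hb'] at h
    have h2 := φ.injective (Subtype.ext h)
    exact congrArg Subtype.val h2
  · intro v hv
    obtain ⟨b, hb⟩ := φ.surjective ⟨v, hv⟩
    refine ⟨b.1, b.2, ?_⟩
    rw [h1 b.1 b.2]
    exact congrArg Subtype.val hb
  · intro b hb j h
    rw [h1 b hb] at h
    exact (φ ⟨b, hb⟩).2 j h.symm

end

section conn

variable {M : PMap B W V} {b₀ : B}

/-- a function on the blacks which is constant along the edges of the map is constant -/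
theorem const_black (hc : M.Conn) {α : Type} (s : B → α) (t : W → α)
    (h : ∀ b j, s b = t (M.e j b)) (b b' : B) : s b = s b' := by
  have h1 : ∀ j b b', M.c j b = M.c j b' → s b = s b' := by
    intro j b b' hb
    have := M.exact j b b' hb
    induction this with
    | rel x y hxy => rw [h x (j + 2), h y (j + 1), hxy]
    | refl x => rfl
    | symm x y h1 ih => exact (ih (M.c_of_eqvGen h1)).symm
    | trans x y z h1 h2 ih1 ih2 =>
      exact (ih1 (M.c_of_eqvGen h1)).trans (ih2 (M.c_of_eqvGen h2))
  have h2 := hc b b'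
  induction h2 with
  | rel x y hxy =>
    obtain ⟨j, hj⟩ := hxy
    exact h1 j x y hj
  | refl x => rfl
  | symm x y _ ih => exact ih.symm
  | trans x y z _ _ ih1 ih2 => exact ih1.trans ih2

end conn

end Vale.Agent.P039.H640
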