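import Vale.Agent.P039.H640.Gam

/-!
# P039-B, row L6 (2): `Γ_f` is connected; a perfect matching through every edge at the root
-/

set_option linter.all false

namespace Vale.Agent.P039.H640

open Vale.Agent.P039.Bn Vale.Agent.P039.Bz Finset

variable {B W V : Type} {M : PMap B W V} {b₀ : B}

/-- a function on the whites which is constant around every black is constant -/
theorem const_white (hc : M.Conn) {α : Type} (n : W → α)
    (h : ∀ b i j, n (M.e i b) = n (M.e j b)) (w w' : W) : n w = n w' := by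
  have h1 := const_black (M := M) hc (fun b => n (M.e 0 b)) n (fun b j => h b 0 j)
    ((M.e 0).symm w) ((M.e 0).symm w')
  simpa using h1

/-- the flow identity at the faces -/
theorem flow_face [Fintype B] [DecidableEq V] (n : W → ℚ) (j : Fin 3) (v : V) :
    ∑ b, (if M.c j b = v then n (M.e (j + 1) b) - n (M.e (j + 2) b) else 0) = 0 := by
  have h1 : ∑ b, (if M.c j b = v then n (M.e (j + 2) b) else 0) =
      ∑ b, (if M.c j b = v then n (M.e (j + 1) b) else 0) := by
    rw [← Equiv.sum_comp (M.rho j) fun b => if M.c j b = v then n (M.e (j + 1) b) else 0]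
    refine Finset.sum_congr rfl fun b _ => ?_
    rw [M.c_rho, M.e_rho]
  have h2 : ∀ b, (if M.c j b = v then n (M.e (j + 1) b) - n (M.e (j + 2) b) else 0) =
      (if M.c j b = v then n (M.e (j + 1) b) else 0) -
        (if M.c j b = v then n (M.e (j + 2) b) else 0) := by
    intro b
    split_ifs <;> simp
  rw [Finset.sum_congr rfl fun b _ => h2 b, Finset.sum_sub_distrib, h1, sub_self]

theorem sum3 (T : Fin 3 → ℚ) (a : Fin 3) : ∑ j, T j = T a + T (a + 1) + T (a + 2) := by
  rw [Fin.sum_univ_three]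
  fin_cases a
  · rfl
  · show T 0 + T 1 + T 2 = T 1 + T 2 + T 0
    ring
  · show T 0 + T 1 + T 2 = T 2 + T 0 + T 1
    ring

theorem sum_off [Fintype B] [I : Fintype (BOff b₀)] (F : B → ℚ) (h0 : F b₀ = 0) :
    ∑ b, F b = ∑ b : BOff b₀, F b.1 := by
  classical
  have h := Finset.sum_subtype (Finset.univ.filter fun b => b ≠ b₀) (p := fun b => b ≠ b₀)
    (F := I) (by intro x; simp) F
  rw [← h]
  symm
  refine Finset.sum_subset (Finset.filter_subset _ _) ?_
  intro x _ hx
  have : x = b₀ := by simpa using hx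
  rw [this, h0]

open Classical in
/-- the reduced signed incidence matrix of `D_f` -/
noncomputable def A (M : PMap B W V) (b₀ : B) (f : BOff b₀ → Fin 3) (φ : BOff b₀ ≃ VOff M b₀) :
    Matrix (BOff b₀) (BOff b₀) ℚ :=
  fun b b' => (if M.c (f b + 1) b.1 = (φ b').1 then 1 else 0) -
    (if M.c (f b + 2) b.1 = (φ b').1 then 1 else 0)

open Classical in
/-- value of a function on the faces off the root, `0` at the root faces -/
noncomputable def ev {b₀ : B} (φ : BOff b₀ ≃ VOff M b₀) (x : BOff b₀ → ℚ) (v : V) : ℚ :=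
  if h : ∀ j, M.c j b₀ ≠ v then x (φ.symm ⟨v, h⟩) else 0

theorem sum_ev [Fintype B] (φ : BOff b₀ ≃ VOff M b₀) (x : BOff b₀ → ℚ) (v : V)
    [Fintype (BOff b₀)] [DecidableEq V] :
    ∑ b' : BOff b₀, (if v = (φ b').1 then 1 else 0) * x b' = ev φ x v := by
  classical
  unfold ev
  split_ifs with h
  · rw [Finset.sum_eq_single (φ.symm ⟨v, h⟩)]
    · simp
    · intro b' _ hb'
      rw [if_neg, zero_mul]
      intro h2
      apply hb'
      rw [Equiv.eq_symm_apply]
      exact Subtype.ext h2.symm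
    · intro h2
      exact absurd (Finset.mem_univ _) h2
  · refine Finset.sum_eq_zero fun b' _ => ?_
    rw [if_neg, zero_mul]
    intro h2
    exact h (by rw [h2]; exact (φ b').2)

theorem det_A_ne [Fintype B] {f : BOff b₀ → Fin 3} {φ : BOff b₀ ≃ VOff M b₀}
    (hφ : ∀ b, Fo M b₀ b (f b) = some (φ b)) (hg : Good (Fo M b₀) f)
    [Fintype (BOff b₀)] [DecidableEq (BOff b₀)] : (A M b₀ f φ).det ≠ 0 := by
  classical
  intro hdet
  obtain ⟨x, hx0, hx⟩ := Matrix.exists_mulVec_eq_zero_iff.2 hdet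
  have h1 : ∀ b : BOff b₀, ev φ x (M.c (f b + 1) b.1) = ev φ x (M.c (f b + 2) b.1) := by
    intro b
    have h2 := congrFun hx b
    simp only [Matrix.mulVec, dotProduct, A, Pi.zero_apply, sub_mul,
      Finset.sum_sub_distrib] at h2
    rw [sum_ev φ x, sum_ev φ x] at h2
    linarith
  obtain ⟨b1, hb1⟩ := Function.ne_iff.1 hx0
  have hb1' : x b1 ≠ 0 := hb1
  obtain ⟨b, i, j, hi, hj, ⟨v, hv, hFv⟩, hK⟩ :=
    hg {v | ev φ x v.1 = x b1} ⟨φ b1, by
      show ev φ x (φ b1).1 = x b1
      unfold ev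
      rw [dif_pos (φ b1).2]
      simp⟩
  have h3 : ∀ i : Fin 3, i ≠ f b → i = f b + 1 ∨ i = f b + 2 := by
    intro i hi
    rcases fcase i (f b) with h | h | h
    · exact absurd h hi
    · exact Or.inl h
    · exact Or.inr h
  have h4 : ev φ x (M.c i b.1) = ev φ x (M.c j b.1) := by
    rcases h3 i hi with rfl | rfl <;> rcases h3 j hj with h | h
    · rw [h]
    · rw [h]
      exact h1 b
    · rw [h]
      exact (h1 b).symm
    · rw [h]
  have h5 : ev φ x (M.c j b.1) = x b1 := by
    rw [← h4, Fo_some.1 hFv]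
    exact hv
  have h6 : ∀ i, M.c i b₀ ≠ M.c j b.1 := by
    by_contra hcon
    have : ev φ x (M.c j b.1) = 0 := by
      unfold ev
      rw [dif_neg hcon]
    rw [this] at h5
    exact hb1' h5.symm
  exact hK ⟨M.c j b.1, h6⟩ h5 (Fo_some.2 rfl)

/-- **(B)** `Γ_f` is connected -/
theorem gamma_const [Fintype B] (hc : M.Conn) {f : BOff b₀ → Fin 3}
    (hf : Mat (Fo M b₀) f) (hg : Good (Fo M b₀) f) (n : W → ℚ)
    (hn : ∀ b : BOff b₀, n (M.e (f b + 1) b.1) = n (M.e (f b + 2) b.1)) (w w' : W) :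
    n w = n w' := by
  classical
  obtain ⟨φ, hφ⟩ := hf
  have hdet := det_A_ne hφ hg
  set y : BOff b₀ → ℚ := fun b => n (M.e (f b) b.1) - n (M.e (f b + 1) b.1) with hy
  -- left kernel
  have hyA : Matrix.vecMul y (A M b₀ f φ) = 0 := by
    funext b'
    have h1 : ∑ j, ∑ b, (if M.c j b = (φ b').1 then n (M.e (j + 1) b) - n (M.e (j + 2) b)
        else 0) = 0 := Finset.sum_eq_zero fun j _ => flow_face n j _
    rw [Finset.sum_comm] at h1
    have h2 : ∑ b : B, ∑ j, (if M.c j b = (φ b').1 then n (M.e (j + 1) b) - n (M.e (j + 2) b)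
        else 0) = ∑ b : BOff b₀, ∑ j, (if M.c j b.1 = (φ b').1 then
          n (M.e (j + 1) b.1) - n (M.e (j + 2) b.1) else 0) := by
      refine sum_off (fun b => ∑ j, (if M.c j b = (φ b').1 then
          n (M.e (j + 1) b) - n (M.e (j + 2) b) else 0)) ?_
      refine Finset.sum_eq_zero fun j _ => ?_
      rw [if_neg ((φ b').2 j)]
    rw [h2] at h1
    have h4 : ∀ b : BOff b₀, ∑ j, (if M.c j b.1 = (φ b').1 then
        n (M.e (j + 1) b.1) - n (M.e (j + 2) b.1) else 0) =
        - (y b * A M b₀ f φ b b') := by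
      intro b
      rw [sum3 _ (f b)]
      have e1 : f b + 1 + 1 = f b + 2 := f11 _
      have e2 : f b + 1 + 2 = f b := f12 _
      have e3 : f b + 2 + 1 = f b := f21 _
      have e4 : f b + 2 + 2 = f b + 1 := f22 _
      simp only [e1, e2, e3, e4]
      rw [hn b]
      unfold A
      simp only [hy]
      rw [hn b]
      split_ifs <;> ring
    rw [Finset.sum_congr rfl fun b _ => h4 b, Finset.sum_neg_distrib, neg_eq_zero] at h1
    exact h1
  have hy0 : y = 0 := by
    by_contra hcon
    exact hdet (Matrix.exists_vecMul_eq_zero_iff.1 ⟨y, hcon, hyA⟩)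
  -- constant around all blacks other than the root
  have h5 : ∀ b, b ≠ b₀ → ∀ i j, n (M.e i b) = n (M.e j b) := by
    intro b hb
    have h6 : n (M.e (f ⟨b, hb⟩) b) = n (M.e (f ⟨b, hb⟩ + 1) b) := by
      have := congrFun hy0 ⟨b, hb⟩
      simp only [hy, Pi.zero_apply] at this
      linarith
    have h7 := hn ⟨b, hb⟩
    have h8 : ∀ i, n (M.e i b) = n (M.e (f ⟨b, hb⟩) b) := by
      intro i
      rcases fcase i (f ⟨b, hb⟩) with h | h | h
      · rw [h]
      · rw [h]
        exact h6.symm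
      · rw [h, h6]
        exact h7.symm
    intro i j
    rw [h8 i, h8 j]
  -- and around the root
  have h9 : ∀ j, n (M.e (j + 1) b₀) = n (M.e (j + 2) b₀) := by
    intro j
    have h10 := flow_face (M := M) n j (M.c j b₀)
    rw [Finset.sum_eq_single b₀] at h10
    · rw [if_pos rfl] at h10
      linarith
    · intro b _ hb
      rw [h5 b hb (j + 1) (j + 2), sub_self, ite_self]
    · intro h
      exact absurd (Finset.mem_univ _) h
  refine const_white hc n (fun b i j => ?_) w w'
  by_cases hb : b = b₀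
  · rw [hb]
    have a0 : n (M.e 1 b₀) = n (M.e 2 b₀) := h9 0
    have a1 : n (M.e 2 b₀) = n (M.e 0 b₀) := h9 1
    have h11 : ∀ i, n (M.e i b₀) = n (M.e 0 b₀) := by
      intro i
      fin_cases i
      · rfl
      · exact a0.trans a1
      · exact a1
    rw [h11 i, h11 j]
  · exact h5 b hb i j

open Classical in
/-- the square matrix of the tree `Γ_f` with the root edge -/
noncomputable def Q (M : PMap B W V) (b₀ : B) (f : BOff b₀ → Fin 3) (i : Fin 3) :
    Matrix B B ℚ := fun b b' =>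
  if h : b ≠ b₀ then (if M.e (f ⟨b, h⟩ + 1) b = M.e 0 b' then 1 else 0) -
    (if M.e (f ⟨b, h⟩ + 2) b = M.e 0 b' then 1 else 0)
  else (if M.e i b = M.e 0 b' then 1 else 0)

theorem sum_e0 [Fintype B] (x : B → ℚ) (w : W) [DecidableEq W] :
    ∑ b' : B, (if w = M.e 0 b' then 1 else 0) * x b' = x ((M.e 0).symm w) := by
  classical
  rw [Finset.sum_eq_single ((M.e 0).symm w)]
  · simp
  · intro b' _ hb'
    rw [if_neg, zero_mul]
    intro h2
    apply hb'
    rw [h2, Equiv.symm_apply_apply]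
  · intro h2
    exact absurd (Finset.mem_univ _) h2

/-- **(C)** a perfect matching through the edge of colour `i` at the root -/
theorem exists_m [Fintype B] (hc : M.Conn) {f : BOff b₀ → Fin 3}
    (hf : Mat (Fo M b₀) f) (hg : Good (Fo M b₀) f) (i : Fin 3) :
    ∃ m : B → Fin 3, Function.Bijective (fun b => M.e (m b) b) ∧
      (∀ b : BOff b₀, m b.1 ≠ f b) ∧ m b₀ = i := by
  classical
  have hdet : (Q M b₀ f i).det ≠ 0 := by
    intro hdet
    obtain ⟨x, hx0, hx⟩ := Matrix.exists_mulVec_eq_zero_iff.2 hdet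
    apply hx0
    have h1 : ∀ b : BOff b₀, x ((M.e 0).symm (M.e (f b + 1) b.1)) =
        x ((M.e 0).symm (M.e (f b + 2) b.1)) := by
      intro b
      have h2 := congrFun hx b.1
      simp only [Matrix.mulVec, dotProduct, Q, Pi.zero_apply, dif_pos b.2, sub_mul,
        Finset.sum_sub_distrib] at h2
      rw [sum_e0 x, sum_e0 x] at h2
      linarith
    have h2 : x ((M.e 0).symm (M.e i b₀)) = 0 := by
      have h3 := congrFun hx b₀
      simp only [Matrix.mulVec, dotProduct, Q, Pi.zero_apply] at h3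
      simp only [ne_eq, not_true_eq_false, dite_false] at h3
      rw [sum_e0 x] at h3
      exact h3
    have h4 := gamma_const hc hf hg (fun w => x ((M.e 0).symm w)) h1
    funext b
    have h5 := h4 (M.e 0 b) (M.e i b₀)
    simp only [Equiv.symm_apply_apply] at h5
    rw [h5, h2]
    rfl
  rw [Matrix.det_apply] at hdet
  obtain ⟨σ, -, hσ⟩ := Finset.exists_ne_zero_of_sum_ne_zero hdet
  have h1 : ∏ b, Q M b₀ f i (σ b) b ≠ 0 := by
    intro h
    rw [h, smul_zero] at hσ
    exact hσ rfl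
  rw [Finset.prod_ne_zero_iff] at h1
  have h2 : ∀ b, Q M b₀ f i b (σ.symm b) ≠ 0 := by
    intro b
    have := h1 (σ.symm b) (Finset.mem_univ _)
    rwa [Equiv.apply_symm_apply] at this
  -- the colour
  have h3 : ∀ b, ∃ c : Fin 3, M.e c b = M.e 0 (σ.symm b) ∧ (∀ h : b ≠ b₀, c ≠ f ⟨b, h⟩) ∧
      (b = b₀ → c = i) := by
    intro b
    have h4 := h2 b
    unfold Q at h4
    by_cases hb : b ≠ b₀
    · rw [dif_pos hb] at h4
      by_cases h5 : M.e (f ⟨b, hb⟩ + 1) b = M.e 0 (σ.symm b)
      · exact ⟨f ⟨b, hb⟩ + 1, h5, fun _ => fne1 _, fun h => absurd h hb⟩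
      · by_cases h6 : M.e (f ⟨b, hb⟩ + 2) b = M.e 0 (σ.symm b)
        · exact ⟨f ⟨b, hb⟩ + 2, h6, fun _ => fne2 _, fun h => absurd h hb⟩
        · rw [if_neg h5, if_neg h6, sub_zero] at h4
          exact absurd rfl h4
    · rw [dif_neg hb] at h4
      by_cases h5 : M.e i b = M.e 0 (σ.symm b)
      · exact ⟨i, h5, fun h => absurd h hb, fun _ => rfl⟩
      · rw [if_neg h5] at h4
        exact absurd rfl h4
  choose m hm1 hm2 hm3 using h3
  refine ⟨m, ?_, fun b => hm2 b.1 b.2, hm3 b₀ rfl⟩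
  have h5 : (fun b => M.e (m b) b) = fun b => (σ.symm.trans (M.e 0)) b := by
    funext b
    exact hm1 b
  rw [h5]
  exact (σ.symm.trans (M.e 0)).bijective

end Vale.Agent.P039.H640
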