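import Vale.Agent.P039.H640.GamB

/-!
# P039-B, row L6 (3): the complement of the perfect matching is a Hamiltonian cycle
-/

set_option linter.all false

namespace Vale.Agent.P039.H640

open Vale.Agent.P039.Bn Vale.Agent.P039.Bz Finset

variable {B W V : Type} {M : PMap B W V} {b₀ : B}

/-- the third colour -/
def thd (a b : Fin 3) : Fin 3 := -a - b

theorem thd_ne1 {a b : Fin 3} (h : a ≠ b) : thd a b ≠ a := by revert h; revert a b; decide
theorem thd_ne2 {a b : Fin 3} (h : a ≠ b) : thd a b ≠ b := by revert h; revert a b; decide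
theorem thd_cases {a b : Fin 3} (h : a ≠ b) (i : Fin 3) : i = a ∨ i = b ∨ i = thd a b := by
  revert h; revert a b i; decide
theorem thd_split {a b : Fin 3} (h : a ≠ b) :
    (b + 1 = a ∧ b + 2 = thd a b) ∨ (b + 2 = a ∧ b + 1 = thd a b) := by
  revert h; revert a b; decide
theorem thd_split2 {a b : Fin 3} (h : a ≠ b) :
    (thd a b + 1 = a ∧ thd a b + 2 = b) ∨ (thd a b + 2 = a ∧ thd a b + 1 = b) := by
  revert h; revert a b; decide

/-- two injections -/
theorem nx_lemma (Y : Finset B) (p q : B → V)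
    (hp : ∀ a ∈ Y, ∀ b ∈ Y, p a = p b → a = b)
    (h2 : ∀ v, (∃ b ∈ Y, p b = v ∨ q b = v) →
      ∃ a ∈ Y, ∃ b ∈ Y, a ≠ b ∧ (p a = v ∨ q a = v) ∧ (p b = v ∨ q b = v)) :
    (∀ b ∈ Y, ∃ a ∈ Y, p a = q b) ∧ (∀ a ∈ Y, ∀ b ∈ Y, q a = q b → a = b) := by
  classical
  have hP : (Y.image p).card = Y.card := Finset.card_image_of_injOn fun a ha b hb h =>
    hp a ha b hb h
  set U := Y.image p ∪ Y.image q with hU
  have h3 : ∀ v ∈ U, 2 ≤ (Y.filter fun b => p b = v).card + (Y.filter fun b => q b = v).card := by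
    intro v hv
    have h4 : ∃ b ∈ Y, p b = v ∨ q b = v := by
      rw [hU, Finset.mem_union, Finset.mem_image, Finset.mem_image] at hv
      rcases hv with ⟨b, hb, h⟩ | ⟨b, hb, h⟩
      · exact ⟨b, hb, Or.inl h⟩
      · exact ⟨b, hb, Or.inr h⟩
    obtain ⟨a, ha, b, hb, hab, h5, h6⟩ := h2 v h4
    have h7 : ({a, b} : Finset B) ⊆
        (Y.filter fun b => p b = v) ∪ (Y.filter fun b => q b = v) := by
      intro x hx
      rw [Finset.mem_insert, Finset.mem_singleton] at hx
      rw [Finset.mem_union, Finset.mem_filter, Finset.mem_filter]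
      rcases hx with rfl | rfl
      · rcases h5 with h | h
        · exact Or.inl ⟨ha, h⟩
        · exact Or.inr ⟨ha, h⟩
      · rcases h6 with h | h
        · exact Or.inl ⟨hb, h⟩
        · exact Or.inr ⟨hb, h⟩
    have h8 := (Finset.card_le_card h7).trans (Finset.card_union_le _ _)
    rwa [Finset.card_pair hab] at h8
  have h4 : ∑ v ∈ U, (Y.filter fun b => p b = v).card = Y.card :=
    (Finset.card_eq_sum_card_fiberwise fun b hb =>
      Finset.mem_union_left _ (Finset.mem_image_of_mem p hb)).symm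
  have h5 : ∑ v ∈ U, (Y.filter fun b => q b = v).card = Y.card :=
    (Finset.card_eq_sum_card_fiberwise fun b hb =>
      Finset.mem_union_right _ (Finset.mem_image_of_mem q hb)).symm
  have h6 : U.card ≤ Y.card := by
    have h7 := Finset.sum_le_sum h3
    rw [Finset.sum_add_distrib, h4, h5, Finset.sum_const, smul_eq_mul] at h7
    omega
  have h7 : Y.image p = U :=
    Finset.eq_of_subset_of_card_le Finset.subset_union_left (by rw [hP]; exact h6)
  have h8 : Y.image q ⊆ Y.image p := by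
    rw [h7]
    exact Finset.subset_union_right
  have h9 : Y.image p ⊆ Y.image q := by
    intro v hv
    have h10 := h3 v (h7 ▸ hv)
    have h11 : (Y.filter fun b => p b = v).card ≤ 1 := by
      rw [Finset.card_le_one]
      intro a ha b hb
      rw [Finset.mem_filter] at ha hb
      exact hp a ha.1 b hb.1 (ha.2.trans hb.2.symm)
    have h12 : 0 < (Y.filter fun b => q b = v).card := by omega
    obtain ⟨b, hb⟩ := Finset.card_pos.1 h12
    rw [Finset.mem_filter] at hb
    exact Finset.mem_image.2 ⟨b, hb.1, hb.2⟩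
  constructor
  · intro b hb
    have := h8 (Finset.mem_image_of_mem q hb)
    obtain ⟨a, ha, h⟩ := Finset.mem_image.1 this
    exact ⟨a, ha, h⟩
  · have h10 : (Y.image q).card = Y.card := by
      rw [Finset.Subset.antisymm h8 h9, hP]
    have h11 := Finset.card_image_iff.1 h10
    intro a ha b hb h
    exact h11 ha hb h

/-- a minimal closed subset -/
theorem exists_single (Y : Finset B) (hY : Y.Nonempty) (nx : B → B) (h : ∀ b ∈ Y, nx b ∈ Y) :
    ∃ S ⊆ Y, S.Nonempty ∧ (∀ b ∈ S, nx b ∈ S) ∧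
      ∀ X : Set B, (∃ b ∈ S, b ∈ X) → (∀ b ∈ S, b ∈ X → nx b ∈ X) → ∀ b ∈ S, b ∈ X := by
  classical
  obtain ⟨S, hS, hmin⟩ := Finset.exists_min_image
    (Y.powerset.filter fun S => S.Nonempty ∧ ∀ b ∈ S, nx b ∈ S) Finset.card
    ⟨Y, by
      rw [Finset.mem_filter]
      exact ⟨Finset.mem_powerset_self _, hY, h⟩⟩
  rw [Finset.mem_filter, Finset.mem_powerset] at hS
  refine ⟨S, hS.1, hS.2.1, hS.2.2, ?_⟩
  intro X hX hcl
  have h1 : (S.filter fun b => b ∈ X) ∈ Y.powerset.filter fun S => S.Nonempty ∧ ∀ b ∈ S,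
      nx b ∈ S := by
    rw [Finset.mem_filter, Finset.mem_powerset]
    refine ⟨(Finset.filter_subset _ _).trans hS.1, ?_, ?_⟩
    · obtain ⟨b, hb, hbX⟩ := hX
      exact ⟨b, Finset.mem_filter.2 ⟨hb, hbX⟩⟩
    · intro b hb
      rw [Finset.mem_filter] at hb ⊢
      exact ⟨hS.2.2 b hb.1, hcl b hb.1 hb.2⟩
  have h2 := Finset.eq_of_subset_of_card_le (Finset.filter_subset _ _) (hmin _ h1)
  intro b hb
  rw [← h2, Finset.mem_filter] at hb
  exact hb.2

/-- **(D)** the complement of the perfect matching is connected -/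
theorem ham_conn [Fintype B] [Fintype V] [DecidableEq V] [DecidableEq B] [DecidableEq W]
    (hS : M.Sph) (h1 : M.T1) (h2 : M.T2) {f : B → Fin 3} (hf : M.IsMatch b₀ f) {m : B → Fin 3}
    (hm : Function.Bijective fun b => M.e (m b) b) (hmf : ∀ b, f b ≠ m b)
    (S₀ : Set B) (T₀ : Set W) (hcl : ∀ b j, j ≠ m b → (b ∈ S₀ ↔ M.e j b ∈ T₀))
    (hne : S₀.Nonempty) : ∀ b, b ∈ S₀ := by
  classical
  -- the matching edges which are crossed
  set Y : Finset B := Finset.univ.filter fun b => ¬ (b ∈ S₀ ↔ M.e (m b) b ∈ T₀) with hY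
  have hYm : ∀ b, b ∈ Y ↔ ¬ (b ∈ S₀ ↔ M.e (m b) b ∈ T₀) := by
    intro b
    rw [hY, Finset.mem_filter]
    exact and_iff_right (Finset.mem_univ _)
  by_cases hYe : Y = ∅
  · have h3 : ∀ b j, (b ∈ S₀) = (M.e j b ∈ T₀) := by
      intro b j
      apply propext
      by_cases hj : j = m b
      · rw [hj]
        by_contra hcon
        have := (hYm b).2 hcon
        rw [hYe] at this
        exact absurd this (Finset.notMem_empty _)
      · exact hcl b j hj
    obtain ⟨b1, hb1⟩ := hne
    intro b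
    have h4 : (b1 ∈ S₀) = (b ∈ S₀) :=
      const_black hS.conn (fun b => b ∈ S₀) (fun w => w ∈ T₀) h3 b1 b
    rw [← h4]
    exact hb1
  exfalso
  have hYne : Y.Nonempty := Finset.nonempty_iff_ne_empty.2 hYe
  set h : B → Fin 3 := fun b => thd (f b) (m b) with hh
  have hhf : ∀ b, h b ≠ f b := fun b => thd_ne1 (hmf b)
  have hhm : ∀ b, h b ≠ m b := fun b => thd_ne2 (hmf b)
  have hcase : ∀ b i, i = f b ∨ i = m b ∨ i = h b := fun b i => thd_cases (hmf b) i
  -- indicator functions
  set s : B → ℚ := fun b => if b ∈ S₀ then 1 else 0 with hs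
  set t : W → ℚ := fun w => if w ∈ T₀ then 1 else 0 with ht
  have hst : ∀ b j, j ≠ m b → t (M.e j b) = s b := by
    intro b j hj
    have := hcl b j hj
    simp only [hs, ht]
    by_cases h3 : b ∈ S₀
    · rw [if_pos h3, if_pos (this.1 h3)]
    · rw [if_neg h3, if_neg fun h4 => h3 (this.2 h4)]
  have hyY : ∀ b, b ∈ Y ↔ t (M.e (m b) b) ≠ s b := by
    intro b
    rw [hYm]
    simp only [hs, ht]
    by_cases h3 : b ∈ S₀ <;> by_cases h4 : M.e (m b) b ∈ T₀ <;> simp [h3, h4]
  -- p is injective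
  have hp : ∀ a b, M.c (f a) a = M.c (f b) b → a = b := by
    intro a b hab
    by_cases ha : a = b₀
    · by_cases hb : b = b₀
      · rw [ha, hb]
      · rw [ha] at hab
        exact absurd hab.symm (hf.avoid b hb _)
    · by_cases hb : b = b₀
      · rw [hb] at hab
        exact absurd hab (hf.avoid a ha _)
      · exact hf.inj a b ha hb hab
  -- every face is met twice
  have h3 : ∀ v, (∃ b ∈ Y, M.c (f b) b = v ∨ M.c (h b) b = v) →
      ∃ a ∈ Y, ∃ b ∈ Y, a ≠ b ∧ (M.c (f a) a = v ∨ M.c (h a) a = v) ∧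
        (M.c (f b) b = v ∨ M.c (h b) b = v) := by
    rintro v ⟨b, hb, hbv⟩
    obtain ⟨j, hjm, hjv⟩ : ∃ j, j ≠ m b ∧ M.c j b = v := by
      rcases hbv with h4 | h4
      · exact ⟨f b, hmf b, h4⟩
      · exact ⟨h b, hhm b, h4⟩
    have h5 := flow_face (M := M) t j v
    have h6 : ∀ b', (if M.c j b' = v then t (M.e (j + 1) b') - t (M.e (j + 2) b') else 0) ≠ 0 ↔
        (M.c j b' = v ∧ j ≠ m b' ∧ b' ∈ Y) := by
      intro b'
      by_cases h7 : M.c j b' = v
      · rw [if_pos h7]
        constructor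
        · intro h8
          refine ⟨h7, ?_, ?_⟩
          · intro h9
            apply h8
            rw [hst b' (j + 1) (by rw [← h9]; exact fne1 _),
              hst b' (j + 2) (by rw [← h9]; exact fne2 _), sub_self]
          · rw [hyY]
            intro h9
            apply h8
            have h10 : ∀ i, t (M.e i b') = s b' := by
              intro i
              by_cases h11 : i = m b'
              · rw [h11]; exact h9
              · exact hst b' i h11
            rw [h10, h10, sub_self]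
        · rintro ⟨-, h8, h9⟩
          rw [hyY] at h9
          rcases fcase (m b') j with h10 | h10 | h10
          · exact absurd h10.symm h8
          · rw [hst b' (j + 2) (by rw [h10]; exact fne21 _), ← h10]
            intro h11
            exact h9 (by linarith)
          · rw [hst b' (j + 1) (by rw [h10]; exact fne12 _), ← h10]
            intro h11
            exact h9 (by linarith)
      · rw [if_neg h7]
        constructor
        · intro h8
          exact absurd rfl h8
        · intro h8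
          exact absurd h8.1 h7
    have h7 : ∃ b', b' ≠ b ∧
        (if M.c j b' = v then t (M.e (j + 1) b') - t (M.e (j + 2) b') else 0) ≠ 0 := by
      by_contra hcon
      push Not at hcon
      rw [Finset.sum_eq_single b (fun b' _ hb' => hcon b' hb')
        (fun h => absurd (Finset.mem_univ _) h)] at h5
      exact (h6 b).2 ⟨hjv, hjm, hb⟩ h5
    obtain ⟨b', hb', h8⟩ := h7
    obtain ⟨h9, h10, h11⟩ := (h6 b').1 h8
    refine ⟨b', h11, b, hb, hb', ?_, hbv⟩
    rcases hcase b' j with h12 | h12 | h12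
    · exact Or.inl (by rw [← h12]; exact h9)
    · exact absurd h12 h10
    · exact Or.inr (by rw [← h12]; exact h9)
  obtain ⟨h4, h5⟩ := nx_lemma Y (fun b => M.c (f b) b) (fun b => M.c (h b) b)
    (fun a _ b _ hab => hp a b hab) h3
  -- the root is not in `Y`
  have hb0 : b₀ ∉ Y := by
    intro hb
    obtain ⟨a, ha, hab⟩ := h4 b₀ hb
    by_cases h6 : a = b₀
    · rw [h6] at hab
      exact hhf b₀ (M.cls _ _ _ _ hab).symm
    · exact hf.avoid a h6 _ hab
  -- the next black
  have h6 : ∀ b, ∃ a, b ∈ Y → a ∈ Y ∧ M.c (f a) a = M.c (h b) b := by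
    intro b
    by_cases hb : b ∈ Y
    · obtain ⟨a, ha, hab⟩ := h4 b hb
      exact ⟨a, fun _ => ⟨ha, hab⟩⟩
    · exact ⟨b, fun h => absurd h hb⟩
  choose nx hnx using h6
  obtain ⟨S, hSY, hSne, hScl, hSs⟩ := exists_single Y hYne nx fun b hb => (hnx b hb).1
  have hb0S : b₀ ∉ S := fun h => hb0 (hSY h)
  have halt : M.IsAlt h f S nx := by
    refine ⟨fun b _ => hhf b, hSne, hScl, fun b hb => (hnx b (hSY hb)).2.symm, ?_, ?_, hSs⟩
    · exact fun b _ b' _ hbb => hp b b' hbb
    · intro b hb b' hb' hbb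
      refine h5 b (hSY hb) b' (hSY hb') ?_
      show M.c (h b) b = M.c (h b') b'
      rw [← (hnx b (hSY hb)).2, ← (hnx b' (hSY hb')).2, hbb]
  obtain ⟨sg, I, hsg, hI, hI0, hcyc⟩ := h1 hS h f S nx b₀ halt hb0S
  have hcard := h2 hS h f S nx b₀ halt hb0S hf sg I hsg hI hI0 hcyc
  -- counting
  set χ : W → ℤ := fun w => if w ∈ I then 1 else 0 with hχ
  have hχ01 : ∀ w, χ w = 0 ∨ χ w = 1 := by
    intro w
    simp only [hχ]
    split_ifs <;> simp
  have hχI : ∀ w w', ((if w ∈ I then (1 : ℚ) else 0) = (if w' ∈ I then (1 : ℚ) else 0)) ↔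
      χ w = χ w' := by
    intro w w'
    simp only [hχ]
    by_cases h6 : w ∈ I <;> by_cases h7 : w' ∈ I <;> simp [h6, h7]
  have hsg0 : sg ≠ 0 := by
    rcases hsg with h6 | h6 <;> rw [h6] <;> norm_num
  have hcyc0 : ∀ b j, PMap.cyc h f S b j = 0 ↔ χ (M.e (j + 1) b) = χ (M.e (j + 2) b) := by
    intro b j
    rw [hcyc b j, mul_eq_zero, or_iff_right hsg0, sub_eq_zero, hχI]
  haveI : Fintype W := Fintype.ofEquiv B (M.e 0)
  have hsum1 : ∀ g : B → W, Function.Bijective g → ∑ b, χ (g b) = ∑ w, χ w := by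
    intro g hg
    exact hg.sum_comp χ
  have hsum : ∑ b, (∑ j, χ (M.e j b) - 3 * χ (M.e (m b) b)) = 0 := by
    rw [Finset.sum_sub_distrib, Finset.sum_comm, ← Finset.mul_sum, hsum1 _ hm,
      Finset.sum_congr rfl fun j _ => hsum1 (fun b => M.e j b) (M.e j).bijective]
    simp
  have hout : ∀ b, b ∉ S → ∑ j, χ (M.e j b) - 3 * χ (M.e (m b) b) = 0 := by
    intro b hb
    have h6 : ∀ j, χ (M.e (j + 1) b) = χ (M.e (j + 2) b) := by
      intro j
      rw [← hcyc0]
      unfold PMap.cyc
      rw [if_neg hb]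
    have a0 : χ (M.e 1 b) = χ (M.e 2 b) := h6 0
    have a1 : χ (M.e 2 b) = χ (M.e 0 b) := h6 1
    have h7 : ∀ j, χ (M.e j b) = χ (M.e 0 b) := by
      intro j
      fin_cases j
      · rfl
      · exact a0.trans a1
      · exact a1
    rw [Finset.sum_congr rfl fun j _ => h7 j, h7 (m b)]
    simp
  have hin : ∀ b, b ∈ S → ∑ j, χ (M.e j b) - 3 * χ (M.e (m b) b) =
      2 - 4 * χ (M.e (m b) b) := by
    intro b hb
    have h6 : χ (M.e (f b) b) = χ (M.e (h b) b) := by
      have h7 : PMap.cyc h f S b (m b) = 0 := by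
        unfold PMap.cyc
        rw [if_pos hb, if_neg (hhm b).symm, if_neg (hmf b).symm, sub_self]
      rw [hcyc0] at h7
      rcases thd_split (hmf b) with ⟨e1, e2⟩ | ⟨e1, e2⟩
      · rw [e1, e2] at h7
        exact h7
      · rw [e1, e2] at h7
        exact h7.symm
    have h8 : χ (M.e (f b) b) ≠ χ (M.e (m b) b) := by
      have h7 : PMap.cyc h f S b (h b) ≠ 0 := by
        unfold PMap.cyc
        rw [if_pos hb, if_pos rfl, if_neg (hhf b)]
        norm_num
      rw [Ne, hcyc0] at h7
      rcases thd_split2 (hmf b) with ⟨e1, e2⟩ | ⟨e1, e2⟩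
      · have e1' : h b + 1 = f b := e1
        have e2' : h b + 2 = m b := e2
        rw [e1', e2'] at h7
        exact h7
      · have e1' : h b + 2 = f b := e1
        have e2' : h b + 1 = m b := e2
        rw [e1', e2'] at h7
        exact fun h9 => h7 h9.symm
    have h9 : ∑ j, χ (M.e j b) = χ (M.e (f b) b) + χ (M.e (m b) b) + χ (M.e (h b) b) := by
      have h10 : (Finset.univ : Finset (Fin 3)) = {f b, m b, h b} := by
        ext i
        simp only [Finset.mem_univ, Finset.mem_insert, Finset.mem_singleton, true_iff]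
        exact hcase b i
      rw [h10, Finset.sum_insert, Finset.sum_pair (hhm b).symm, add_assoc]
      rw [Finset.mem_insert, Finset.mem_singleton, not_or]
      exact ⟨hmf b, (hhf b).symm⟩
    rw [h9]
    rcases hχ01 (M.e (f b) b) with h10 | h10 <;> rcases hχ01 (M.e (m b) b) with h11 | h11
    · exact absurd (h10.trans h11.symm) h8
    · rw [← h6, h10, h11]
      norm_num
    · rw [← h6, h10, h11]
      norm_num
    · exact absurd (h10.trans h11.symm) h8
  have hfin : ∑ b ∈ S, (2 - 4 * χ (M.e (m b) b)) = 0 := by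
    rw [← Finset.sum_congr rfl hin, ← hsum]
    refine Finset.sum_subset (Finset.subset_univ _) fun b _ hb => hout b hb
  rw [Finset.sum_sub_distrib, ← Finset.mul_sum, Finset.sum_const, nsmul_eq_mul] at hfin
  have h10 : (S.card : ℤ) = 2 * ∑ b ∈ S, χ (M.e (m b) b) := by linarith
  rw [hcard] at h10
  push_cast at h10
  omega

/-- **row L6** from T1 and T2 -/
theorem ham_of (hT : ∀ (B W V : Type) [Fintype B] [Fintype V] [DecidableEq V] [DecidableEq B]
    [DecidableEq W] (M : PMap B W V), M.T1 ∧ M.T2) : HamStmt := by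
  classical
  intro B W V _ _ _ M hM b₀ f hf hg i
  obtain ⟨m, hm1, hm2, hm3⟩ := exists_m hM.conn hf hg i
  refine ⟨m, ⟨hm1, ?_⟩, hm3⟩
  intro S T hcl hne
  refine ham_conn hM (hT B W V M).1 (hT B W V M).2 (isMatch_ext hf (i + 1)) hm1 ?_ S T hcl hne
  intro b
  by_cases hb : b = b₀
  · rw [hb, ext_self, hm3]
    exact fne1 _
  · rw [ext_of_ne b₀ f _ hb]
    exact (hm2 ⟨b, hb⟩).symm

end Vale.Agent.P039.H640
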